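import Vale.Agent.P015.H606.TwoGrp
import Vale.Agent.P015.H886.SS

/-! adapter: `H886.TwoGrp`. -/

namespace Vale.Agent.P015.H606

open Finset

theorem twoGrp : Vale.Agent.P015.H886.TwoGrp := by
  intro G s D X M R y c₃ g t0 t1 P hG hs hcop hR hlo hhi hD hDX h01 hinj hstep hX hin hP hpop
    hstrip hcs hy1 hX1 hy2
  refine twogrp hG hs hcop hR hlo hhi hD hDX h01 ?_ hstep hX ?_ hP ?_ ?_ hcs hy1 hX1 hy2
  · intro t ht t' ht'
    exact hinj t t' (Finset.mem_Icc.1 ht).1 (Finset.mem_Icc.1 ht).2 (Finset.mem_Icc.1 ht').1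
      (Finset.mem_Icc.1 ht').2
  · intro t ht
    exact hin t (Finset.mem_Icc.1 ht).1 (Finset.mem_Icc.1 ht).2
  · intro t ht t' ht'
    exact hpop t t' (Finset.mem_Icc.1 ht).1 (Finset.mem_Icc.1 ht).2 (Finset.mem_Icc.1 ht').1
      (Finset.mem_Icc.1 ht').2
  · intro t ht t' ht'
    exact hstrip t t' (Finset.mem_Icc.1 ht).1 (Finset.mem_Icc.1 ht).2 (Finset.mem_Icc.1 ht').1
      (Finset.mem_Icc.1 ht').2

end Vale.Agent.P015.H606
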