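import Vale.Agent.P015.H721.Strip

/-!
P015, block (I): short vector lemma (helper886 #3202/#3629).
-/

namespace Vale.Agent.P015.H606

open Finset
open Vale.Agent.P015.H721 (cr dd nm nm_nonneg nm_pos dd_cr dd_sub cr_sub)

theorem cr_frame (e v h : ℤ × ℤ) : nm e * cr v h = dd e v * cr e h - cr e v * dd e h := by
  unfold nm cr dd; ring

theorem dd_par {e v h : ℤ × ℤ} (hc : cr v h = 0) : dd e h * nm v = dd v h * dd e v := by
  unfold nm cr dd at *
  have : (e.1 * h.1 + e.2 * h.2) * (v.1 ^ 2 + v.2 ^ 2) - (v.1 * h.1 + v.2 * h.2) *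
      (e.1 * v.1 + e.2 * v.2) = (v.1 * h.2 - v.2 * h.1) * (e.2 * v.1 - e.1 * v.2) := by ring
  rw [hc, zero_mul] at this
  linarith

theorem cr_par {e v h : ℤ × ℤ} (hc : cr v h = 0) : cr e h * nm v = dd v h * cr e v := by
  unfold nm cr dd at *
  have : (e.1 * h.2 - e.2 * h.1) * (v.1 ^ 2 + v.2 ^ 2) - (v.1 * h.1 + v.2 * h.2) *
      (e.1 * v.2 - e.2 * v.1) = (v.1 * h.2 - v.2 * h.1) * (e.1 * v.1 + e.2 * v.2) := by ring
  rw [hc, zero_mul] at this
  linarith

/-- a finite set of reals, `1`-separated and of diameter at most `L`, has at most `L + 1` points -/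
theorem card_sep {α : Type*} (F : Finset α) (t : α → ℝ) {L : ℝ}
    (h1 : ∀ a ∈ F, ∀ b ∈ F, a ≠ b → 1 ≤ |t a - t b|)
    (h2 : ∀ a ∈ F, ∀ b ∈ F, |t a - t b| ≤ L) : F.card ≤ ⌊L⌋₊ + 1 := by
  classical
  rcases F.eq_empty_or_nonempty with h | h
  · simp [h]
  obtain ⟨a0, ha0, hmin⟩ := F.exists_min_image t h
  have : F.card ≤ (range (⌊L⌋₊ + 1)).card := by
    refine Finset.card_le_card_of_injOn (fun a => ⌊t a - t a0⌋₊) ?_ ?_
    · intro a ha
      have := h2 a ha a0 ha0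
      simp only [Finset.coe_range, Set.mem_Iio, Nat.lt_succ_iff]
      exact Nat.floor_le_floor ((le_abs_self _).trans this)
    · intro a ha b hb hab
      by_contra hne
      have hs := h1 a ha b hb hne
      simp only at hab
      have ha' : 0 ≤ t a - t a0 := sub_nonneg.2 (hmin a ha)
      have hb' : 0 ≤ t b - t a0 := sub_nonneg.2 (hmin b hb)
      have e1 := Nat.floor_le ha'
      have e2 := Nat.lt_floor_add_one (t a - t a0)
      have e3 := Nat.floor_le hb'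
      have e4 := Nat.lt_floor_add_one (t b - t a0)
      rw [hab] at e1 e2
      have : |t a - t b| < 1 := by rw [abs_lt]; constructor <;> linarith
      linarith
  simpa using this

/-- SHORT VECTOR LEMMA -/
theorem shortvec {M : ℕ} {R : ℤ} (hM : 0 < M) {e : ℤ × ℤ} (he : e ≠ 0) {A B : ℝ} (hA : 0 < A)
    (hB : 0 < B) (S : Finset (ℤ × ℤ))
    (hcl : ∀ z ∈ S, ∀ z' ∈ S, (M : ℤ) ∣ (z - z').1 + R * (z - z').2)
    (hlong : ∀ z ∈ S, ∀ z' ∈ S, |(dd e (z - z') : ℝ)| ≤ A * √(nm e : ℝ))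
    (hlat : ∀ z ∈ S, ∀ z' ∈ S, |(cr e (z - z') : ℝ)| ≤ B * √(nm e : ℝ))
    (h2 : 2 ≤ S.card) (hAB : 16 * A * B ≤ S.card * M) :
    ∃ v : ℤ × ℤ, v ≠ 0 ∧ (M : ℤ) ∣ v.1 + R * v.2 ∧
      |(dd e v : ℝ)| ≤ 4 * A / S.card * √(nm e : ℝ) ∧
      |(cr e v : ℝ)| ≤ 4 * B / S.card * √(nm e : ℝ) := by
  classical
  set E : ℝ := √(nm e : ℝ) with hE
  have hne : (0 : ℝ) < (nm e : ℝ) := by exact_mod_cast nm_pos he
  have hE0 : 0 < E := Real.sqrt_pos.2 hne
  have hEE : E * E = (nm e : ℝ) := Real.mul_self_sqrt hne.le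
  -- the norm
  let ν : ℤ × ℤ → ℝ := fun v => max (|(dd e v : ℝ)| / (A * E)) (|(cr e v : ℝ)| / (B * E))
  have hν0 : ∀ v, 0 ≤ ν v := fun v => le_max_of_le_left (by positivity)
  have hνd : ∀ v, |(dd e v : ℝ)| ≤ ν v * (A * E) := fun v => by
    rw [← div_le_iff₀ (by positivity)]; exact le_max_left _ _
  have hνc : ∀ v, |(cr e v : ℝ)| ≤ ν v * (B * E) := fun v => by
    rw [← div_le_iff₀ (by positivity)]; exact le_max_right _ _
  have hν1 : ∀ z ∈ S, ∀ z' ∈ S, ν (z - z') ≤ 1 := fun z hz z' hz' => by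
    refine max_le ?_ ?_
    · rw [div_le_one (by positivity)]; exact hlong z hz z' hz'
    · rw [div_le_one (by positivity)]; exact hlat z hz z' hz'
  have hoff : S.offDiag.Nonempty := by
    obtain ⟨a, ha, b, hb, hab⟩ := Finset.one_lt_card.1 (by omega : 1 < S.card)
    exact ⟨(a, b), by simp [ha, hb, hab]⟩
  obtain ⟨⟨z1, z2⟩, hz12, hmin⟩ := S.offDiag.exists_min_image (fun p => ν (p.1 - p.2)) hoff
  rw [Finset.mem_offDiag] at hz12
  obtain ⟨hz1, hz2, hz12⟩ := hz12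
  simp only at hz1 hz2 hz12
  set v : ℤ × ℤ := z1 - z2 with hv
  have hv0 : v ≠ 0 := sub_ne_zero.2 hz12
  have hvM : (M : ℤ) ∣ v.1 + R * v.2 := hcl z1 hz1 z2 hz2
  have hnv : (0 : ℝ) < (nm v : ℝ) := by exact_mod_cast nm_pos hv0
  have hνv1 : ν v ≤ 1 := hν1 z1 hz1 z2 hz2
  -- ν v > 0
  have hνvpos : 0 < ν v := by
    rcases (hν0 v).lt_or_eq with h | h
    · exact h
    exfalso
    have a1 := hνd v
    have a2 := hνc v
    rw [← h, zero_mul] at a1 a2
    have b1 : (dd e v : ℝ) = 0 := abs_eq_zero.1 (le_antisymm a1 (abs_nonneg _))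
    have b2 : (cr e v : ℝ) = 0 := abs_eq_zero.1 (le_antisymm a2 (abs_nonneg _))
    have b3 : ((dd e v : ℝ)) ^ 2 + (cr e v : ℝ) ^ 2 = (nm e : ℝ) * (nm v : ℝ) := by
      exact_mod_cast dd_cr e v
    rw [b1, b2] at b3
    have := mul_pos hne hnv
    linarith
  -- parallel vectors
  have hpar : ∀ h : ℤ × ℤ, cr v h = 0 → ν h * (nm v : ℝ) = |(dd v h : ℝ)| * ν v := by
    intro h hc
    have a1 : (dd e h : ℝ) * (nm v : ℝ) = (dd v h : ℝ) * (dd e v : ℝ) := by
      exact_mod_cast dd_par hc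
    have a2 : (cr e h : ℝ) * (nm v : ℝ) = (dd v h : ℝ) * (cr e v : ℝ) := by
      exact_mod_cast cr_par hc
    have b1 : |(dd e h : ℝ)| * (nm v : ℝ) = |(dd v h : ℝ)| * |(dd e v : ℝ)| := by
      rw [← abs_mul, ← a1, abs_mul, abs_of_pos hnv]
    have b2 : |(cr e h : ℝ)| * (nm v : ℝ) = |(dd v h : ℝ)| * |(cr e v : ℝ)| := by
      rw [← abs_mul, ← a2, abs_mul, abs_of_pos hnv]
    show max _ _ * _ = _ * max _ _
    rw [max_mul_of_nonneg _ _ hnv.le, mul_max_of_nonneg _ _ (abs_nonneg _)]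
    congr 1
    · rw [div_mul_eq_mul_div, b1, mul_div_assoc]
    · rw [div_mul_eq_mul_div, b2, mul_div_assoc]
  -- rows
  have hM' : (0 : ℝ) < M := by exact_mod_cast hM
  have hrow_dvd : ∀ z ∈ S, (M : ℤ) ∣ cr v (z - z1) := fun z hz =>
    H716.dvd_cross hvM (hcl z hz z1 hz1)
  let ρ : ℤ × ℤ → ℤ := fun z => cr v (z - z1) / M
  have hρ : ∀ z ∈ S, (ρ z : ℝ) * M = (cr v (z - z1) : ℝ) := fun z hz => by
    have := Int.ediv_mul_cancel (hrow_dvd z hz)
    exact_mod_cast this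
  set k : ℕ := ⌊2 * ν v * A * B / M⌋₊ with hk
  have hcrb : ∀ z ∈ S, |(cr v (z - z1) : ℝ)| ≤ 2 * ν v * A * B := by
    intro z hz
    have a1 : (nm e : ℝ) * (cr v (z - z1) : ℝ) = (dd e v : ℝ) * (cr e (z - z1) : ℝ)
        - (cr e v : ℝ) * (dd e (z - z1) : ℝ) := by exact_mod_cast cr_frame e v (z - z1)
    have a2 : (nm e : ℝ) * |(cr v (z - z1) : ℝ)| ≤ |(dd e v : ℝ)| * |(cr e (z - z1) : ℝ)|
        + |(cr e v : ℝ)| * |(dd e (z - z1) : ℝ)| := by
      rw [← abs_of_pos hne, ← abs_mul, a1, ← abs_mul, ← abs_mul]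
      exact abs_sub _ _
    have a3 : |(dd e v : ℝ)| * |(cr e (z - z1) : ℝ)| ≤ (ν v * (A * E)) * (B * E) := by
      have := hνd v
      have := hlat z hz z1 hz1
      gcongr
    have a4 : |(cr e v : ℝ)| * |(dd e (z - z1) : ℝ)| ≤ (ν v * (B * E)) * (A * E) := by
      have := hνc v
      have := hlong z hz z1 hz1
      gcongr
    have a5 : (nm e : ℝ) * |(cr v (z - z1) : ℝ)| ≤ (nm e : ℝ) * (2 * ν v * A * B) := by
      refine (a2.trans (add_le_add a3 a4)).trans (le_of_eq ?_)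
      rw [← hEE]; ring
    exact le_of_mul_le_mul_left a5 hne
  have hrows : S.image ρ ⊆ Icc (-(k : ℤ)) k := by
    intro n hn
    rw [Finset.mem_image] at hn
    obtain ⟨z, hz, rfl⟩ := hn
    have a1 := hcrb z hz
    rw [← hρ z hz, abs_mul, abs_of_pos hM', ← le_div_iff₀ hM'] at a1
    have a2 : ((ρ z).natAbs : ℝ) ≤ 2 * ν v * A * B / M := by
      rw [Nat.cast_natAbs]; push_cast; exact a1
    have a3 : (ρ z).natAbs ≤ k := Nat.le_floor a2
    rw [Finset.mem_Icc, ← abs_le, ← Int.natCast_natAbs]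
    exact_mod_cast a3
  have hrowcard : ((S.image ρ).card : ℝ) ≤ 2 * (2 * ν v * A * B / M) + 1 := by
    have a1 := Finset.card_le_card hrows
    rw [Int.card_Icc] at a1
    have a2 : (S.image ρ).card ≤ 2 * k + 1 := by omega
    have a3 : (k : ℝ) ≤ 2 * ν v * A * B / M := Nat.floor_le (by
      have := hν0 v
      positivity)
    have a4 : ((S.image ρ).card : ℝ) ≤ 2 * k + 1 := by exact_mod_cast a2
    linarith
  -- points in one row
  have hfib : ∀ n ∈ S.image ρ, (S.filter (fun z => ρ z = n)).card ≤ ⌊1 / ν v⌋₊ + 1 := by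
    intro n _
    refine card_sep _ (fun z => (dd v (z - z1) : ℝ) / (nm v : ℝ)) ?_ ?_
    · intro a ha b hb hab
      rw [Finset.mem_filter] at ha hb
      have hc : cr v (a - b) = 0 := by
        have h1 := Int.ediv_mul_cancel (hrow_dvd a ha.1)
        have h2 := Int.ediv_mul_cancel (hrow_dvd b hb.1)
        have h3 : cr v (a - z1) / M = cr v (b - z1) / M := ha.2.trans hb.2.symm
        rw [h3] at h1
        have h4 : cr v (a - z1) = cr v (b - z1) := h1.symm.trans h2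
        have h5 : a - b = (a - z1) - (b - z1) := by abel
        rw [h5, cr_sub, h4, sub_self]
      have h6 := hpar (a - b) hc
      have h7 : ν v ≤ ν (a - b) := hmin (a, b) (by
        rw [Finset.mem_offDiag]; exact ⟨ha.1, hb.1, hab⟩)
      have h8 : (nm v : ℝ) ≤ |(dd v (a - b) : ℝ)| := by
        have : ν v * (nm v : ℝ) ≤ |(dd v (a - b) : ℝ)| * ν v := by
          rw [← h6]; gcongr
        have : ν v * (nm v : ℝ) ≤ ν v * |(dd v (a - b) : ℝ)| := by linarith
        exact le_of_mul_le_mul_left this hνvpos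
      have h9 : (dd v (a - z1) : ℝ) / (nm v : ℝ) - (dd v (b - z1) : ℝ) / (nm v : ℝ)
          = (dd v (a - b) : ℝ) / (nm v : ℝ) := by
        have h5 : dd v (a - b) = dd v (a - z1) - dd v (b - z1) := by
          rw [← dd_sub]; congr 1; abel
        rw [h5]; push_cast; ring
      rw [h9, abs_div, abs_of_pos hnv, le_div_iff₀ hnv]
      linarith
    · intro a ha b hb
      rw [Finset.mem_filter] at ha hb
      have hc : cr v (a - b) = 0 := by
        have h1 := Int.ediv_mul_cancel (hrow_dvd a ha.1)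
        have h2 := Int.ediv_mul_cancel (hrow_dvd b hb.1)
        have h3 : cr v (a - z1) / M = cr v (b - z1) / M := ha.2.trans hb.2.symm
        rw [h3] at h1
        have h4 : cr v (a - z1) = cr v (b - z1) := h1.symm.trans h2
        have h5 : a - b = (a - z1) - (b - z1) := by abel
        rw [h5, cr_sub, h4, sub_self]
      have h6 := hpar (a - b) hc
      have h7 := hν1 a ha.1 b hb.1
      have h9 : (dd v (a - z1) : ℝ) / (nm v : ℝ) - (dd v (b - z1) : ℝ) / (nm v : ℝ)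
          = (dd v (a - b) : ℝ) / (nm v : ℝ) := by
        have h5 : dd v (a - b) = dd v (a - z1) - dd v (b - z1) := by
          rw [← dd_sub]; congr 1; abel
        rw [h5]; push_cast; ring
      rw [h9, abs_div, abs_of_pos hnv, div_le_div_iff₀ hnv hνvpos, ← h6, one_mul]
      calc ν (a - b) * (nm v : ℝ) ≤ 1 * (nm v : ℝ) := by gcongr
        _ = _ := one_mul _
  have hcard : S.card ≤ (⌊1 / ν v⌋₊ + 1) * (S.image ρ).card :=
    Finset.card_le_mul_card_image S _ hfib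
  -- conclusion
  have hfl : ((⌊1 / ν v⌋₊ + 1 : ℕ) : ℝ) ≤ 2 / ν v := by
    push_cast
    have a1 : (⌊1 / ν v⌋₊ : ℝ) ≤ 1 / ν v := Nat.floor_le (by positivity)
    have a2 : 1 ≤ 1 / ν v := by rw [le_div_iff₀ hνvpos]; linarith
    have a3 : 2 / ν v = 1 / ν v + 1 / ν v := by ring
    linarith
  have hS : (S.card : ℝ) ≤ 2 / ν v * (2 * (2 * ν v * A * B / M) + 1) := by
    calc (S.card : ℝ) ≤ ((⌊1 / ν v⌋₊ + 1 : ℕ) : ℝ) * ((S.image ρ).card : ℝ) := by
          exact_mod_cast hcard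
      _ ≤ _ := by gcongr
  have hS0 : (0 : ℝ) < S.card := by
    have : 0 < S.card := by omega
    exact_mod_cast this
  have hS' : 2 / ν v * (2 * (2 * ν v * A * B / M) + 1) = 8 * A * B / M + 2 / ν v := by
    field_simp
    ring
  rw [hS'] at hS
  have h16 : 8 * A * B / M ≤ S.card / 2 := by
    rw [div_le_div_iff₀ hM' two_pos]; linarith
  have hνS : ν v ≤ 4 / S.card := by
    have : (S.card : ℝ) / 2 ≤ 2 / ν v := by linarith
    rw [div_le_div_iff₀ two_pos hνvpos] at this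
    rw [le_div_iff₀ hS0]
    linarith
  refine ⟨v, hv0, hvM, ?_, ?_⟩
  · calc |(dd e v : ℝ)| ≤ ν v * (A * E) := hνd v
      _ ≤ 4 / S.card * (A * E) := by gcongr
      _ = _ := by ring
  · calc |(cr e v : ℝ)| ≤ ν v * (B * E) := hνc v
      _ ≤ 4 / S.card * (B * E) := by gcongr
      _ = _ := by ring

end Vale.Agent.P015.H606
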