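import Vale.Agent.P015.H606.ShortVec
import Vale.Agent.P015.H886.Pop

/-!
P015, block (I): the two-group step (helper886 #3629).
-/

namespace Vale.Agent.P015.H606

open Finset
open Vale.Agent.P015.H721 (cr dd nm nm_nonneg nm_pos dd_cr dd_sub cr_sub)
open Vale.Agent.P015.H886 (res sd lf)

theorem sd_nonneg (z : ℤ × ℤ) : 0 ≤ sd z := le_max_of_le_left (abs_nonneg _)

theorem sd_add_le (z w : ℤ × ℤ) : sd (z + w) ≤ sd z + sd w := by
  unfold sd
  refine max_le ?_ ?_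
  · exact (abs_add_le _ _).trans (add_le_add (le_max_left _ _) (le_max_left _ _))
  · exact (abs_add_le _ _).trans (add_le_add (le_max_right _ _) (le_max_right _ _))

theorem sd_neg (z : ℤ × ℤ) : sd (-z) = sd z := by
  unfold sd; simp

theorem sd_sub_le (z w : ℤ × ℤ) : sd (z - w) ≤ sd z + sd w := by
  rw [sub_eq_add_neg, ← sd_neg w]; exact sd_add_le _ _

theorem nm_le_sd (z : ℤ × ℤ) : nm z ≤ 2 * sd z ^ 2 := by
  unfold nm
  have h1 : z.1 ^ 2 ≤ sd z ^ 2 := by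
    rw [← sq_abs z.1]
    exact pow_le_pow_left₀ (abs_nonneg _) (le_max_left _ _) 2
  have h2 : z.2 ^ 2 ≤ sd z ^ 2 := by
    rw [← sq_abs z.2]
    exact pow_le_pow_left₀ (abs_nonneg _) (le_max_right _ _) 2
  linarith

theorem steps_le {g : ℕ → ℤ × ℤ} {t0 t1 D : ℕ} (h01 : t0 ≤ t1)
    (hstep : ∀ t, t0 ≤ t → t < t1 → sd (g (t + 1) - g t) ≤ D) :
    sd (g t1 - g t0) ≤ D * ((t1 : ℤ) - t0) := by
  induction t1, h01 using Nat.le_induction with
  | base => simp [sd]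
  | succ n hn ih =>
    have h1 := ih (fun t ht ht' => hstep t ht (by omega))
    have h2 := hstep n hn (by omega)
    have h3 : g (n + 1) - g t0 = (g (n + 1) - g n) + (g n - g t0) := by abel
    rw [h3]
    have h4 := sd_add_le (g (n + 1) - g n) (g n - g t0)
    push_cast
    linarith

/-- pigeonhole over a product of finite sets of residues -/
theorem pig {s : ℕ} {P : Fin s → Finset ℤ} (T : Finset ℕ) (hT : T.Nonempty)
    (φ : ℕ → Fin s → ℤ) {κ : ℝ} (hκ : 0 < κ) (hP : ∏ b, ((P b).card : ℝ) ≤ κ)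
    (hmaps : ∀ t ∈ T, ∀ b, φ t b ∈ P b) :
    ∃ F ⊆ T, (T.card : ℝ) ≤ (F.card : ℝ) * κ ∧ ∀ t ∈ F, ∀ t' ∈ F, φ t = φ t' := by
  classical
  have hmaps' : ∀ t ∈ T, φ t ∈ Fintype.piFinset P := fun t ht => by
    rw [Fintype.mem_piFinset]; exact hmaps t ht
  have hcardpi : ((Fintype.piFinset P).card : ℝ) ≤ κ := by
    rw [Fintype.card_piFinset, Nat.cast_prod]; exact hP
  have hpine : (Fintype.piFinset P).Nonempty := by
    obtain ⟨t, ht⟩ := hT
    exact ⟨φ t, hmaps' t ht⟩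
  obtain ⟨x, hx, hxcard⟩ : ∃ x ∈ Fintype.piFinset P,
      (T.card : ℝ) / κ ≤ ((T.filter (fun t => φ t = x)).card : ℝ) := by
    refine Finset.exists_le_of_sum_le hpine ?_
    rw [Finset.sum_const, nsmul_eq_mul]
    have h1 : ((∑ x ∈ Fintype.piFinset P, (T.filter (fun t => φ t = x)).card : ℕ) : ℝ)
        = T.card := by
      rw [← Finset.card_eq_sum_card_fiberwise hmaps']
    rw [← Nat.cast_sum, h1]
    calc ((Fintype.piFinset P).card : ℝ) * (T.card / κ) ≤ κ * (T.card / κ) := by gcongr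
      _ = T.card := by field_simp
  refine ⟨T.filter (fun t => φ t = x), Finset.filter_subset _ _, ?_, ?_⟩
  · rw [← div_le_iff₀ hκ]; exact hxcard
  · intro t ht t' ht'
    rw [(Finset.mem_filter.1 ht).2, (Finset.mem_filter.1 ht').2]

theorem num_two {D X κ n s y : ℝ} (hD : 1 ≤ D) (hκ0 : 0 < κ) (hnX : X ≤ 2 * D * (n * κ))
    (hκ : κ ≤ Real.exp (2 * s * y)) (hsy : 0 ≤ s * y) (hy : 0 ≤ y)
    (hX1 : 768 * D ^ 2 * Real.exp ((4 * s + 1) * y) < X) : 1 < n := by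
  by_contra h
  rw [not_lt] at h
  have hexple : Real.exp (2 * s * y) ≤ Real.exp ((4 * s + 1) * y) := by
    apply Real.exp_le_exp.2
    nlinarith [hsy]
  have h2 : X ≤ 2 * D * (1 * Real.exp ((4 * s + 1) * y)) := by
    refine hnX.trans ?_
    have : κ ≤ Real.exp ((4 * s + 1) * y) := hκ.trans hexple
    gcongr
  have h3 : 2 * D * (1 * Real.exp ((4 * s + 1) * y)) ≤
      768 * D ^ 2 * Real.exp ((4 * s + 1) * y) := by
    rw [one_mul]
    have : 2 * D ≤ 768 * D ^ 2 := by nlinarith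
    gcongr
  linarith

theorem num_AB {D X κ n m mc y : ℝ} (hn : 0 ≤ n) (hκ0 : 0 ≤ κ) (hnX : X ≤ 2 * D * (n * κ))
    (hκc : κ * mc = m) (hmc : Real.exp (2 * y) ≤ mc) (hy1 : 192 * D ≤ Real.exp y) :
    16 * (6 * X) * Real.exp y ≤ n * m := by
  have h1 : n * m = (n * κ) * mc := by rw [mul_assoc, hκc]
  rw [h1]
  have h2 : (n * κ) * Real.exp (2 * y) ≤ (n * κ) * mc := by gcongr
  refine le_trans ?_ h2
  have h3 : Real.exp (2 * y) = Real.exp y * Real.exp y := by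
    rw [← Real.exp_add]; congr 1; ring
  rw [h3]
  have hey := Real.exp_pos y
  have h4 : 16 * (6 * X) ≤ (n * κ) * Real.exp y := by
    calc 16 * (6 * X) ≤ 16 * (6 * (2 * D * (n * κ))) := by gcongr
      _ = (n * κ) * (192 * D) := by ring
      _ ≤ _ := by gcongr
  calc 16 * (6 * X) * Real.exp y ≤ ((n * κ) * Real.exp y) * Real.exp y := by gcongr
    _ = _ := by ring

theorem kap_facts {m c3 : ℝ} (hc0 : 0 < c3) (hm : 1 ≤ m) :
    0 < m ^ (1 - c3) ∧ m ^ (1 - c3) ≤ m ∧ m ^ (1 - c3) * m ^ c3 = m := by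
  have hm0 : 0 < m := by linarith
  refine ⟨Real.rpow_pos_of_pos hm0 _, ?_, ?_⟩
  · calc m ^ (1 - c3) ≤ m ^ (1 : ℝ) := Real.rpow_le_rpow_of_exponent_le hm (by linarith)
      _ = m := Real.rpow_one m
  · rw [← Real.rpow_add hm0]; simp

theorem mc_ge {m c3 s y : ℝ} (hc0 : 0 < c3) (hcs : 2 ≤ c3 * s) (hy : 0 ≤ y)
    (hm : Real.exp (s * y) ≤ m) : Real.exp (2 * y) ≤ m ^ c3 := by
  calc Real.exp (2 * y) ≤ Real.exp (c3 * s * y) := by
        apply Real.exp_le_exp.2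
        exact mul_le_mul_of_nonneg_right hcs hy
    _ = Real.exp (s * y) ^ c3 := by rw [← Real.exp_mul]; congr 1; ring
    _ ≤ m ^ c3 := Real.rpow_le_rpow (Real.exp_pos _).le hm hc0.le

theorem prod_lo {s : ℕ} {M : Fin s → ℕ} {y : ℝ} (hlo : ∀ b, Real.exp y ≤ M b) :
    Real.exp (s * y) ≤ ((∏ b, M b : ℕ) : ℝ) := by
  rw [Nat.cast_prod]
  calc Real.exp (s * y) = ∏ _b : Fin s, Real.exp y := by
        rw [Finset.prod_const, Finset.card_univ, Fintype.card_fin, ← Real.exp_nat_mul]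
    _ ≤ _ := Finset.prod_le_prod (fun _ _ => (Real.exp_pos _).le) (fun b _ => hlo b)

theorem prod_hi {s : ℕ} {M : Fin s → ℕ} {y : ℝ} (hhi : ∀ b, (M b : ℝ) ≤ Real.exp (2 * y)) :
    ((∏ b, M b : ℕ) : ℝ) ≤ Real.exp (2 * s * y) := by
  rw [Nat.cast_prod]
  calc ∏ b, (M b : ℝ) ≤ ∏ _b : Fin s, Real.exp (2 * y) :=
        Finset.prod_le_prod (fun b _ => Nat.cast_nonneg _) (fun b _ => hhi b)
    _ = _ := by
        rw [Finset.prod_const, Finset.card_univ, Fintype.card_fin, ← Real.exp_nat_mul]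
        congr 1; ring

theorem class_dvd {s : ℕ} {M : Fin s → ℕ} {R : ℤ} {z z' z0 : ℤ × ℤ}
    (hcop : Pairwise (fun b b' => Nat.Coprime (M b) (M b')))
    (h : (fun b => res R (M b) (z - z0)) = (fun b => res R (M b) (z' - z0))) :
    ((∏ b, M b : ℕ) : ℤ) ∣ (z - z').1 + R * (z - z').2 := by
  rw [Nat.cast_prod]
  refine Finset.prod_dvd_of_coprime ?_ ?_
  · intro b _ b' _ hbb'
    exact Nat.isCoprime_iff_coprime.2 (hcop hbb')
  · intro b _
    have h1 : lf R (z - z0) % (M b) = lf R (z' - z0) % (M b) := congrFun h b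
    have h2 : ((M b : ℕ) : ℤ) ∣ lf R (z - z0) - lf R (z' - z0) :=
      Int.ModEq.dvd (show lf R (z' - z0) % (M b) = lf R (z - z0) % (M b) from h1.symm)
    have h3 : (z - z').1 + R * (z - z').2 = lf R (z - z0) - lf R (z' - z0) := by
      simp only [lf, Prod.fst_sub, Prod.snd_sub]; ring
    rw [h3]; exact h2

/-- ONE GROUP: a short lattice vector from many good times. -/
theorem onegrp {s D X : ℕ} {M : Fin s → ℕ} {R : ℤ} {y c3 : ℝ} {g : ℕ → ℤ × ℤ} {z0 : ℤ × ℤ}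
    {P : Fin s → Finset ℤ} {e : ℤ × ℤ} (T : Finset ℕ)
    (hcop : Pairwise (fun b b' => Nat.Coprime (M b) (M b')))
    (hlo : ∀ b, Real.exp y ≤ M b) (hhi : ∀ b, (M b : ℝ) ≤ Real.exp (2 * y))
    (hD : 1 ≤ D) (hy : 0 ≤ y) (he : e ≠ 0)
    (hinj : ∀ t ∈ T, ∀ t' ∈ T, g t = g t' → t = t')
    (hlong : ∀ t ∈ T, ∀ t' ∈ T, |(dd e (g t - g t') : ℝ)| ≤ 6 * X * √(nm e : ℝ))
    (hlat : ∀ t ∈ T, ∀ t' ∈ T, |(cr e (g t - g t') : ℝ)| ≤ Real.exp y * √(nm e : ℝ))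
    (hP : ∀ b, ((P b).card : ℝ) ≤ (M b : ℝ) ^ (1 - c3))
    (hgood : ∀ t ∈ T, ∀ b, res R (M b) (g t - z0) ∈ P b)
    (hT : (X : ℝ) ≤ 2 * D * T.card) (hc0 : 0 < c3) (hcs : 2 ≤ c3 * s)
    (hy1 : 192 * (D : ℝ) ≤ Real.exp y)
    (hX1 : 768 * (D : ℝ) ^ 2 * Real.exp ((4 * s + 1) * y) < X) :
    ∃ v : ℤ × ℤ, v ≠ 0 ∧ ((∏ b, M b : ℕ) : ℤ) ∣ v.1 + R * v.2 ∧
      |(dd e v : ℝ)| ≤ 48 * D * ((∏ b, M b : ℕ) : ℝ) ^ (1 - c3) * √(nm e : ℝ) ∧
      |(cr e v : ℝ)| ≤ 8 * D * Real.exp y * ((∏ b, M b : ℕ) : ℝ) ^ (1 - c3) / X *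
        √(nm e : ℝ) := by
  classical
  have hD' : (1 : ℝ) ≤ D := by exact_mod_cast hD
  have hX0 : (0 : ℝ) < X := by
    have : 0 < 768 * (D : ℝ) ^ 2 * Real.exp ((4 * s + 1) * y) := by positivity
    linarith
  have hm_lo := prod_lo (y := y) hlo
  have hm_hi := prod_hi (y := y) hhi
  have hmprod : ((∏ b, M b : ℕ) : ℝ) = ∏ b, (M b : ℝ) := by push_cast; rfl
  generalize hm : ((∏ b, M b : ℕ) : ℝ) = m at hm_lo hm_hi hmprod ⊢
  have hsy : (0 : ℝ) ≤ s * y := by positivity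
  have hm1 : 1 ≤ m := (Real.one_le_exp hsy).trans hm_lo
  have hm0 : 0 < m := by linarith
  obtain ⟨hκ0, hκm, hκc⟩ := kap_facts hc0 hm1
  have hmc := mc_ge hc0 hcs hy hm_lo
  have hPκ : ∏ b, ((P b).card : ℝ) ≤ m ^ (1 - c3) := by
    rw [hmprod, ← Real.finsetProd_rpow _ _ (fun b _ => Nat.cast_nonneg _)]
    exact Finset.prod_le_prod (fun _ _ => Nat.cast_nonneg _) (fun b _ => hP b)
  generalize m ^ (1 - c3) = κ at hκ0 hκm hκc hPκ ⊢
  have hTpos : (0 : ℝ) < T.card := by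
    by_contra h
    rw [not_lt] at h
    have : 2 * (D : ℝ) * T.card ≤ 0 := mul_nonpos_of_nonneg_of_nonpos (by positivity) h
    linarith
  have hTne : T.Nonempty := by
    rw [← Finset.card_pos]; exact_mod_cast hTpos
  obtain ⟨F, hFT, hFc, hFφ⟩ := pig T hTne (fun t b => res R (M b) (g t - z0)) hκ0 hPκ hgood
  have hScard : (F.image g).card = F.card :=
    Finset.card_image_of_injOn (fun a ha b hb hab => hinj a (hFT ha) b (hFT hb) hab)
  have hnX : (X : ℝ) ≤ 2 * D * (((F.image g).card : ℝ) * κ) := by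
    rw [hScard]
    calc (X : ℝ) ≤ 2 * D * T.card := hT
      _ ≤ 2 * D * (F.card * κ) := by gcongr
  have h1n := num_two hD' hκ0 hnX (hκm.trans hm_hi) hsy hy hX1
  have h2S : 2 ≤ (F.image g).card := by
    have : 1 < (F.image g).card := by exact_mod_cast h1n
    omega
  have hn0 : (0 : ℝ) < ((F.image g).card : ℝ) := by linarith
  have hAB := num_AB (D := (D : ℝ)) (X := (X : ℝ)) hn0.le hκ0.le hnX hκc hmc hy1
  have hmNat : 0 < ∏ b, M b := by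
    have : (0 : ℝ) < ((∏ b, M b : ℕ) : ℝ) := by rw [hm]; exact hm0
    exact_mod_cast this
  rw [← hm] at hAB
  obtain ⟨v, hv0, hvM, hvl, hvc⟩ := shortvec (R := R) hmNat he
    (A := 6 * (X : ℝ)) (B := Real.exp y) (by positivity) (Real.exp_pos y) (F.image g)
    (by
      intro z hz z' hz'
      rw [Finset.mem_image] at hz hz'
      obtain ⟨t, ht, rfl⟩ := hz
      obtain ⟨t', ht', rfl⟩ := hz'
      exact class_dvd hcop (hFφ t ht t' ht'))
    (by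
      intro z hz z' hz'
      rw [Finset.mem_image] at hz hz'
      obtain ⟨t, ht, rfl⟩ := hz
      obtain ⟨t', ht', rfl⟩ := hz'
      exact hlong t (hFT ht) t' (hFT ht'))
    (by
      intro z hz z' hz'
      rw [Finset.mem_image] at hz hz'
      obtain ⟨t, ht, rfl⟩ := hz
      obtain ⟨t', ht', rfl⟩ := hz'
      exact hlat t (hFT ht) t' (hFT ht')) h2S hAB
  refine ⟨v, hv0, hvM, hvl.trans ?_, hvc.trans ?_⟩
  · have h1 : 4 * (6 * (X : ℝ)) / ((F.image g).card : ℝ) ≤ 48 * D * κ := by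
      rw [div_le_iff₀ hn0]
      calc 4 * (6 * (X : ℝ)) ≤ 4 * (6 * (2 * D * (((F.image g).card : ℝ) * κ))) := by gcongr
        _ = _ := by ring
    exact mul_le_mul_of_nonneg_right h1 (Real.sqrt_nonneg _)
  · have h1 : 4 * Real.exp y / ((F.image g).card : ℝ) ≤ 8 * D * Real.exp y * κ / X := by
      rw [div_le_div_iff₀ hn0 hX0]
      have hey := Real.exp_pos y
      calc 4 * Real.exp y * (X : ℝ) ≤ 4 * Real.exp y * (2 * D * (((F.image g).card : ℝ) * κ)) := by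
            gcongr
        _ = _ := by ring
    exact mul_le_mul_of_nonneg_right h1 (Real.sqrt_nonneg _)

/-- two groups of moduli which are good for at least half of the times -/
theorem two_good {G s : ℕ} (hG : 2 ≤ G) (T : Finset ℕ) (hT : T.Nonempty)
    (bad : ℕ → Fin G × Fin s → Prop) [∀ t, DecidablePred (bad t)]
    (hbad : ∀ t ∈ T, 8 * (Finset.univ.filter (bad t)).card ≤ G) :
    ∃ i1 i2 : Fin G, i1 ≠ i2 ∧ T.card ≤ 2 * (T.filter (fun t => ∀ j, ¬ bad t (i1, j))).card ∧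
      T.card ≤ 2 * (T.filter (fun t => ∀ j, ¬ bad t (i2, j))).card := by
  classical
  set N : Fin G → ℕ := fun i => (T.filter (fun t => ∃ j, bad t (i, j))).card with hN
  have hcompl : ∀ i, (T.filter (fun t => ∀ j, ¬ bad t (i, j))).card + N i = T.card := by
    intro i
    have h1 := Finset.card_filter_add_card_filter_not (s := T) (fun t => ∀ j, ¬ bad t (i, j))
    have h2 : T.filter (fun t => ∃ j, bad t (i, j)) =
        T.filter (fun t => ¬ ∀ j, ¬ bad t (i, j)) := by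
      apply Finset.filter_congr
      intro t _
      push Not
      rfl
    show _ + (T.filter (fun t => ∃ j, bad t (i, j))).card = _
    rw [h2]; exact h1
  have hsum : 8 * ∑ i, N i ≤ G * T.card := by
    have h1 : ∑ i, N i = ∑ t ∈ T, (Finset.univ.filter (fun i => ∃ j, bad t (i, j))).card := by
      simp only [hN, Finset.card_filter]
      rw [Finset.sum_comm]
    rw [h1, Finset.mul_sum]
    calc ∑ t ∈ T, 8 * (Finset.univ.filter (fun i => ∃ j, bad t (i, j))).card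
        ≤ ∑ t ∈ T, G := Finset.sum_le_sum (fun t ht => ?_)
      _ = G * T.card := by rw [Finset.sum_const, smul_eq_mul, mul_comm]
    refine le_trans (Nat.mul_le_mul_left 8 ?_) (hbad t ht)
    have h2 : (Finset.univ.filter (fun i => ∃ j, bad t (i, j))) ⊆
        (Finset.univ.filter (bad t)).image Prod.fst := by
      intro i hi
      rw [Finset.mem_filter] at hi
      obtain ⟨_, j, hj⟩ := hi
      rw [Finset.mem_image]
      exact ⟨(i, j), by simp [hj], rfl⟩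
    exact (Finset.card_le_card h2).trans Finset.card_image_le
  set H : Finset (Fin G) := Finset.univ.filter
    (fun i => T.card ≤ 2 * (T.filter (fun t => ∀ j, ¬ bad t (i, j))).card) with hH
  by_cases h1 : 1 < H.card
  · obtain ⟨i1, hi1, i2, hi2, h12⟩ := Finset.one_lt_card.1 h1
    rw [hH, Finset.mem_filter] at hi1 hi2
    exact ⟨i1, i2, h12, hi1.2, hi2.2⟩
  · exfalso
    have hTpos : 0 < T.card := Finset.card_pos.2 hT
    have h2 : G - 1 ≤ (Finset.univ \ H).card := by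
      rw [Finset.card_sdiff_of_subset (Finset.subset_univ _), Finset.card_univ,
        Fintype.card_fin]
      omega
    have h3 : ∀ i ∈ Finset.univ \ H, T.card + 1 ≤ 2 * N i := by
      intro i hi
      rw [Finset.mem_sdiff, hH, Finset.mem_filter] at hi
      have h4 : ¬ T.card ≤ 2 * (T.filter (fun t => ∀ j, ¬ bad t (i, j))).card :=
        fun h => hi.2 ⟨hi.1, h⟩
      have := hcompl i
      omega
    have h4 : (G - 1) * (T.card + 1) ≤ 2 * ∑ i, N i := by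
      calc (G - 1) * (T.card + 1) ≤ (Finset.univ \ H).card * (T.card + 1) :=
            Nat.mul_le_mul_right _ h2
        _ = ∑ i ∈ Finset.univ \ H, (T.card + 1) := by rw [Finset.sum_const, smul_eq_mul]
        _ ≤ ∑ i ∈ Finset.univ \ H, 2 * N i := Finset.sum_le_sum h3
        _ ≤ ∑ i, 2 * N i := Finset.sum_le_sum_of_subset (Finset.subset_univ _)
        _ = _ := by rw [Finset.mul_sum]
    obtain ⟨G', rfl⟩ : ∃ G', G = G' + 2 := ⟨G - 2, by omega⟩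
    have h5 : (G' + 2 - 1) = G' + 1 := by omega
    rw [h5] at h4
    nlinarith

theorem cross_zero {e v w : ℤ × ℤ} (he : e ≠ 0) {D X ey κ1 κ2 : ℝ} (hX0 : 0 < X)
    (hD : 0 ≤ D) (hey : 0 ≤ ey) (hk1 : 0 ≤ κ1) (hk2 : 0 ≤ κ2)
    (hvl : |(dd e v : ℝ)| ≤ 48 * D * κ1 * √(nm e : ℝ))
    (hvc : |(cr e v : ℝ)| ≤ 8 * D * ey * κ1 / X * √(nm e : ℝ))
    (hwl : |(dd e w : ℝ)| ≤ 48 * D * κ2 * √(nm e : ℝ))
    (hwc : |(cr e w : ℝ)| ≤ 8 * D * ey * κ2 / X * √(nm e : ℝ))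
    (hsmall : 768 * D ^ 2 * ey * (κ1 * κ2) < X) : cr v w = 0 := by
  have hne : (0 : ℝ) < (nm e : ℝ) := by exact_mod_cast nm_pos he
  have hEE : √(nm e : ℝ) * √(nm e : ℝ) = (nm e : ℝ) := Real.mul_self_sqrt hne.le
  have hE0 : 0 ≤ √(nm e : ℝ) := Real.sqrt_nonneg _
  generalize √(nm e : ℝ) = E at hvl hvc hwl hwc hEE hE0
  have a1 : (nm e : ℝ) * (cr v w : ℝ) = (dd e v : ℝ) * (cr e w : ℝ)
      - (cr e v : ℝ) * (dd e w : ℝ) := by exact_mod_cast cr_frame e v w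
  have a2 : (nm e : ℝ) * |(cr v w : ℝ)| ≤ |(dd e v : ℝ)| * |(cr e w : ℝ)|
      + |(cr e v : ℝ)| * |(dd e w : ℝ)| := by
    rw [← abs_of_pos hne, ← abs_mul, a1, ← abs_mul, ← abs_mul]
    exact abs_sub _ _
  have a3 : |(dd e v : ℝ)| * |(cr e w : ℝ)| ≤ (48 * D * κ1 * E) * (8 * D * ey * κ2 / X * E) :=
    mul_le_mul hvl hwc (abs_nonneg _) (by positivity)
  have a4 : |(cr e v : ℝ)| * |(dd e w : ℝ)| ≤ (8 * D * ey * κ1 / X * E) * (48 * D * κ2 * E) :=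
    mul_le_mul hvc hwl (abs_nonneg _) (by positivity)
  have a5 : (nm e : ℝ) * |(cr v w : ℝ)| ≤
      (nm e : ℝ) * (768 * D ^ 2 * ey * (κ1 * κ2) / X) := by
    refine (a2.trans (add_le_add a3 a4)).trans (le_of_eq ?_)
    rw [← hEE]; ring
  have a6 : |(cr v w : ℝ)| ≤ 768 * D ^ 2 * ey * (κ1 * κ2) / X :=
    le_of_mul_le_mul_left a5 hne
  have a7 : |(cr v w : ℝ)| < 1 := by
    refine lt_of_le_of_lt a6 ?_
    rw [div_lt_one hX0]; exact hsmall
  have a8 : |cr v w| < 1 := by exact_mod_cast a7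
  exact Int.abs_lt_one_iff.1 a8

theorem nm_small {e u : ℤ × ℤ} (he : e ≠ 0) {D X ey κ : ℝ} (hX0 : 0 < X)
    (hD : 0 ≤ D) (hey : 0 ≤ ey) (hκ : 0 ≤ κ)
    (h1 : |(dd e u : ℝ)| ≤ 48 * D * κ * √(nm e : ℝ))
    (h2 : |(cr e u : ℝ)| ≤ 8 * D * ey * κ / X * √(nm e : ℝ))
    (h3 : 8 * ey ≤ X) : (nm u : ℝ) ≤ (49 * D * κ) ^ 2 := by
  have hne : (0 : ℝ) < (nm e : ℝ) := by exact_mod_cast nm_pos he
  have hEE : √(nm e : ℝ) * √(nm e : ℝ) = (nm e : ℝ) := Real.mul_self_sqrt hne.le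
  have hE0 : 0 ≤ √(nm e : ℝ) := Real.sqrt_nonneg _
  generalize √(nm e : ℝ) = E at h1 h2 hEE hE0
  have a1 : ((dd e u : ℤ) : ℝ) ^ 2 + ((cr e u : ℤ) : ℝ) ^ 2
      = (nm e : ℝ) * (nm u : ℝ) := by exact_mod_cast dd_cr e u
  have a2 : ((dd e u : ℤ) : ℝ) ^ 2 ≤ (48 * D * κ * E) ^ 2 := by
    rw [← sq_abs]; exact pow_le_pow_left₀ (abs_nonneg _) h1 2
  have a3 : ((cr e u : ℤ) : ℝ) ^ 2 ≤ (8 * D * ey * κ / X * E) ^ 2 := by
    rw [← sq_abs]; exact pow_le_pow_left₀ (abs_nonneg _) h2 2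
  have a4 : 8 * ey / X ≤ 1 := by rw [div_le_one hX0]; exact h3
  have b1 : (48 * D * κ * E) ^ 2 = (nm e : ℝ) * (48 * D * κ) ^ 2 := by rw [← hEE]; ring
  have b2 : (8 * D * ey * κ / X * E) ^ 2 = (nm e : ℝ) * ((D * κ) ^ 2 * (8 * ey / X) ^ 2) := by
    rw [← hEE]; ring
  have b3 : (8 * ey / X) ^ 2 ≤ 1 := pow_le_one₀ (by positivity) a4
  have b4 : (D * κ) ^ 2 * (8 * ey / X) ^ 2 ≤ (D * κ) ^ 2 * 1 :=
    mul_le_mul_of_nonneg_left b3 (sq_nonneg _)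
  have a5 : (nm e : ℝ) * (nm u : ℝ) ≤ (nm e : ℝ) * (49 * D * κ) ^ 2 := by
    rw [← a1]
    refine (add_le_add a2 a3).trans ?_
    rw [b1, b2, ← mul_add]
    refine mul_le_mul_of_nonneg_left ?_ hne.le
    nlinarith [sq_nonneg (D * κ)]
  exact le_of_mul_le_mul_left a5 hne

theorem final_num {D y κ1 κ2 m1 m2 c1 c2 : ℝ} (hk1 : 0 < κ1) (hk2 : 0 < κ2)
    (h1 : κ1 * c1 = m1) (h2 : κ2 * c2 = m2) (hc1 : Real.exp (2 * y) ≤ c1)
    (hc2 : Real.exp (2 * y) ≤ c2) (hfin : m1 * m2 ≤ 2401 * D ^ 2 * (κ1 * κ2)) :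
    Real.exp (4 * y) ≤ 2401 * D ^ 2 := by
  have a1 : (κ1 * κ2) * (c1 * c2) ≤ (κ1 * κ2) * (2401 * D ^ 2) := by
    calc (κ1 * κ2) * (c1 * c2) = (κ1 * c1) * (κ2 * c2) := by ring
      _ = m1 * m2 := by rw [h1, h2]
      _ ≤ _ := hfin
      _ = _ := by ring
  have a2 : c1 * c2 ≤ 2401 * D ^ 2 := le_of_mul_le_mul_left a1 (mul_pos hk1 hk2)
  refine le_trans ?_ a2
  calc Real.exp (4 * y) = Real.exp (2 * y) * Real.exp (2 * y) := by
        rw [← Real.exp_add]; congr 1; ring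
    _ ≤ _ := mul_le_mul hc1 hc2 (Real.exp_pos _).le ((Real.exp_pos _).le.trans hc1)

theorem small_num {D X κ1 κ2 s y : ℝ} (hk1 : 0 ≤ κ1) (hk2 : 0 ≤ κ2)
    (h1 : κ1 ≤ Real.exp (2 * s * y)) (h2 : κ2 ≤ Real.exp (2 * s * y))
    (hX1 : 768 * D ^ 2 * Real.exp ((4 * s + 1) * y) < X) :
    768 * D ^ 2 * Real.exp y * (κ1 * κ2) < X := by
  have hkk : κ1 * κ2 ≤ Real.exp (4 * s * y) := by
    calc κ1 * κ2 ≤ Real.exp (2 * s * y) * Real.exp (2 * s * y) :=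
          mul_le_mul h1 h2 hk2 (Real.exp_pos _).le
      _ = _ := by rw [← Real.exp_add]; congr 1; ring
  refine lt_of_le_of_lt ?_ hX1
  calc 768 * D ^ 2 * Real.exp y * (κ1 * κ2)
      ≤ 768 * D ^ 2 * Real.exp y * Real.exp (4 * s * y) := by
        have := Real.exp_pos y
        gcongr
    _ = 768 * D ^ 2 * (Real.exp y * Real.exp (4 * s * y)) := by ring
    _ = _ := by rw [← Real.exp_add]; congr 2; ring

theorem diff_long {X D : ℕ} (hDX : D ≤ X) {e z w z0 : ℤ × ℤ}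
    (hz : sd (z - z0) ≤ X + D) (hw : sd (w - z0) ≤ X + D) :
    |(dd e (z - w) : ℝ)| ≤ 6 * X * √(nm e : ℝ) := by
  have hne : (0 : ℝ) ≤ (nm e : ℝ) := by exact_mod_cast nm_nonneg e
  have hEE : √(nm e : ℝ) * √(nm e : ℝ) = (nm e : ℝ) := Real.mul_self_sqrt hne
  have h1 : sd (z - w) ≤ 4 * X := by
    have h2 : z - w = (z - z0) - (w - z0) := by abel
    rw [h2]
    have h3 := sd_sub_le (z - z0) (w - z0)
    have h6 : (D : ℤ) ≤ X := by exact_mod_cast hDX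
    linarith
  have h2 : nm (z - w) ≤ 2 * (4 * (X : ℤ)) ^ 2 := by
    refine (nm_le_sd _).trans ?_
    have := pow_le_pow_left₀ (sd_nonneg (z - w)) h1 2
    linarith
  have h3 : (nm (z - w) : ℝ) ≤ (6 * (X : ℝ)) ^ 2 := by
    have : ((nm (z - w) : ℤ) : ℝ) ≤ 2 * (4 * (X : ℝ)) ^ 2 := by exact_mod_cast h2
    nlinarith
  have h4 : ((dd e (z - w) : ℤ) : ℝ) ^ 2 + ((cr e (z - w) : ℤ) : ℝ) ^ 2
      = (nm e : ℝ) * (nm (z - w) : ℝ) := by exact_mod_cast dd_cr e (z - w)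
  refine abs_le_of_sq_le_sq ?_ (by positivity)
  calc ((dd e (z - w) : ℤ) : ℝ) ^ 2 ≤ (nm e : ℝ) * (nm (z - w) : ℝ) := by
        have := sq_nonneg ((cr e (z - w) : ℤ) : ℝ)
        linarith
    _ ≤ (nm e : ℝ) * (6 * (X : ℝ)) ^ 2 := mul_le_mul_of_nonneg_left h3 hne
    _ = _ := by rw [mul_pow (6 * (X : ℝ)) (√(nm e : ℝ)) 2, sq (√(nm e : ℝ)), hEE]; ring

theorem diff_lat {e h : ℤ × ℤ} {y : ℝ}
    (h1 : ((cr e h : ℤ) : ℝ) ^ 2 ≤ Real.exp (2 * y) * (nm e : ℝ)) :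
    |(cr e h : ℝ)| ≤ Real.exp y * √(nm e : ℝ) := by
  have hne : (0 : ℝ) ≤ (nm e : ℝ) := by exact_mod_cast nm_nonneg e
  have hEE : √(nm e : ℝ) * √(nm e : ℝ) = (nm e : ℝ) := Real.mul_self_sqrt hne
  refine abs_le_of_sq_le_sq ?_ (by positivity)
  refine h1.trans (le_of_eq ?_)
  have h2 : Real.exp (2 * y) = Real.exp y * Real.exp y := by
    rw [← Real.exp_add]; congr 1; ring
  rw [h2, mul_pow (Real.exp y) (√(nm e : ℝ)) 2, sq (√(nm e : ℝ)), hEE]; ring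

/-- **TWOGRP** (exact form of #3629). -/
theorem twogrp {G s D X : ℕ} {M : Fin G × Fin s → ℕ} {R : ℤ} {y c3 : ℝ} {g : ℕ → ℤ × ℤ}
    {t0 t1 : ℕ} {P : Fin G × Fin s → Finset ℤ} (hG : 2 ≤ G) (hs : 1 ≤ s)
    (hcop : Pairwise (fun b b' => Nat.Coprime (M b) (M b')))
    (hR : ∀ b, (M b : ℤ) ∣ R ^ 2 + 1)
    (hlo : ∀ b, Real.exp y ≤ M b) (hhi : ∀ b, (M b : ℝ) ≤ Real.exp (2 * y))
    (hD : 1 ≤ D) (hDX : D ≤ X) (h01 : t0 ≤ t1)
    (hinj : ∀ t ∈ Icc t0 t1, ∀ t' ∈ Icc t0 t1, g t = g t' → t = t')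
    (hstep : ∀ t, t0 ≤ t → t < t1 → sd (g (t + 1) - g t) ≤ D)
    (hX : (X : ℤ) < sd (g t1 - g t0))
    (hin : ∀ t ∈ Icc t0 t1, sd (g t - g t0) ≤ X + D)
    (hP : ∀ b, ((P b).card : ℝ) ≤ (M b : ℝ) ^ (1 - c3))
    (hpop : ∀ t ∈ Icc t0 t1, ∀ t' ∈ Icc t0 t1,
      8 * (Finset.univ.filter (fun b => res R (M b) (g t' - g t) ∉ P b)).card ≤ G)
    (hstrip : ∀ t ∈ Icc t0 t1, ∀ t' ∈ Icc t0 t1,
      ((cr (g t1 - g t0) (g t' - g t) : ℤ) : ℝ) ^ 2 ≤
        Real.exp (2 * y) * (nm (g t1 - g t0) : ℝ))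
    (hcs : 2 ≤ c3 * s) (hy1 : 192 * (D : ℝ) ≤ Real.exp y)
    (hX1 : 768 * (D : ℝ) ^ 2 * Real.exp ((4 * s + 1) * y) < X)
    (hy2 : 2401 * (D : ℝ) ^ 2 < Real.exp (4 * y)) : False := by
  classical
  have hD' : (1 : ℝ) ≤ D := by exact_mod_cast hD
  have hs' : (1 : ℝ) ≤ s := by exact_mod_cast hs
  have hc0 : 0 < c3 := by
    by_contra h
    rw [not_lt] at h
    have : c3 * s ≤ 0 := mul_nonpos_of_nonpos_of_nonneg h (by positivity)
    linarith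
  have hy : 0 ≤ y := by
    rw [← Real.one_le_exp_iff]; linarith
  have he : g t1 - g t0 ≠ 0 := by
    intro h
    rw [h] at hX
    simp [sd] at hX
    omega
  have ht0 : t0 ∈ Icc t0 t1 := Finset.mem_Icc.2 ⟨le_rfl, h01⟩
  have hX0 : (0 : ℝ) < X := by
    have : 0 < 768 * (D : ℝ) ^ 2 * Real.exp ((4 * s + 1) * y) := by positivity
    linarith
  -- number of times
  have hTcard : (X : ℝ) ≤ D * ((Icc t0 t1).card : ℝ) := by
    have h1 := steps_le h01 hstep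
    have h2 : (X : ℤ) ≤ D * ((t1 : ℤ) - t0) := (hX.le).trans h1
    have h3 : ((Icc t0 t1).card : ℤ) = (t1 : ℤ) - t0 + 1 := by
      rw [Nat.card_Icc]; omega
    have h4 : (X : ℤ) ≤ D * ((Icc t0 t1).card : ℤ) := by
      rw [h3, mul_add]
      have : (0 : ℤ) ≤ D * 1 := by positivity
      linarith
    exact_mod_cast h4
  obtain ⟨i1, i2, h12, hi1, hi2⟩ := two_good hG (Icc t0 t1) ⟨t0, ht0⟩
    (fun t b => res R (M b) (g t - g t0) ∉ P b)
    (fun t ht => hpop t0 ht0 t ht)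
  have hgrp : ∀ i : Fin G, (Icc t0 t1).card ≤
      2 * ((Icc t0 t1).filter (fun t => ∀ j, ¬ (res R (M (i, j)) (g t - g t0) ∉ P (i, j)))).card →
      ∃ v : ℤ × ℤ, v ≠ 0 ∧ ((∏ j, M (i, j) : ℕ) : ℤ) ∣ v.1 + R * v.2 ∧
      |(dd (g t1 - g t0) v : ℝ)| ≤ 48 * D * ((∏ j, M (i, j) : ℕ) : ℝ) ^ (1 - c3) *
        √(nm (g t1 - g t0) : ℝ) ∧
      |(cr (g t1 - g t0) v : ℝ)| ≤ 8 * D * Real.exp y * ((∏ j, M (i, j) : ℕ) : ℝ) ^ (1 - c3) / X *
        √(nm (g t1 - g t0) : ℝ) := by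
    intro i hi
    have hsub : ∀ t ∈ (Icc t0 t1).filter
        (fun t => ∀ j, ¬ (res R (M (i, j)) (g t - g t0) ∉ P (i, j))), t ∈ Icc t0 t1 :=
      fun t ht => (Finset.mem_filter.1 ht).1
    refine onegrp (g := g) (z0 := g t0) (P := fun j => P (i, j)) (M := fun j => M (i, j))
      ((Icc t0 t1).filter (fun t => ∀ j, ¬ (res R (M (i, j)) (g t - g t0) ∉ P (i, j))))
      (fun b b' hbb' => hcop (fun h => hbb' (by simpa using h)))
      (fun b => hlo _) (fun b => hhi _) hD hy he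
      (fun t ht t' ht' => hinj t (hsub t ht) t' (hsub t' ht'))
      (fun t ht t' ht' => diff_long hDX (hin t (hsub t ht)) (hin t' (hsub t' ht')))
      (fun t ht t' ht' => diff_lat (hstrip t' (hsub t' ht') t (hsub t ht)))
      (fun b => hP _) (fun t ht b => not_not.1 ((Finset.mem_filter.1 ht).2 b)) ?_ hc0 hcs hy1 hX1
    refine hTcard.trans ?_
    have h3 : ((Icc t0 t1).card : ℝ) ≤ 2 * (((Icc t0 t1).filter
      (fun t => ∀ j, ¬ (res R (M (i, j)) (g t - g t0) ∉ P (i, j)))).card : ℝ) := by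
      exact_mod_cast hi
    calc (D : ℝ) * ((Icc t0 t1).card : ℝ) ≤ D * (2 * (((Icc t0 t1).filter
      (fun t => ∀ j, ¬ (res R (M (i, j)) (g t - g t0) ∉ P (i, j)))).card : ℝ)) :=
          mul_le_mul_of_nonneg_left h3 (by positivity)
      _ = _ := by ring
  obtain ⟨v, hv0, hvM, hvl, hvc⟩ := hgrp i1 hi1
  obtain ⟨w, hw0, hwM, hwl, hwc⟩ := hgrp i2 hi2
  clear hgrp hi1 hi2 hTcard hstrip hpop hin
  have hlo1 := prod_lo (M := fun j => M (i1, j)) (y := y) (fun j => hlo _)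
  have hlo2 := prod_lo (M := fun j => M (i2, j)) (y := y) (fun j => hlo _)
  have hhi1 := prod_hi (M := fun j => M (i1, j)) (y := y) (fun j => hhi _)
  have hhi2 := prod_hi (M := fun j => M (i2, j)) (y := y) (fun j => hhi _)
  have hRp : ∀ i : Fin G, ((∏ j, M (i, j) : ℕ) : ℤ) ∣ R ^ 2 + 1 := by
    intro i
    rw [Nat.cast_prod]
    refine Finset.prod_dvd_of_coprime ?_ (fun j _ => hR _)
    intro b _ b' _ hbb'
    exact Nat.isCoprime_iff_coprime.2 (hcop (fun h => hbb' (by simpa using h)))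
  have hcop12 : IsCoprime ((∏ j, M (i1, j) : ℕ) : ℤ) ((∏ j, M (i2, j) : ℕ) : ℤ) := by
    rw [Nat.isCoprime_iff_coprime]
    refine Nat.Coprime.prod_left (fun j _ => Nat.Coprime.prod_right (fun j' _ => ?_))
    exact hcop (fun h => h12 (by simpa using congrArg Prod.fst h))
  have hsy : (0 : ℝ) ≤ s * y := by positivity
  have hm1 : (1 : ℝ) ≤ ((∏ j, M (i1, j) : ℕ) : ℝ) := (Real.one_le_exp hsy).trans hlo1
  have hm2 : (1 : ℝ) ≤ ((∏ j, M (i2, j) : ℕ) : ℝ) := (Real.one_le_exp hsy).trans hlo2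
  obtain ⟨hk1, hk1m, hk1c⟩ := kap_facts hc0 hm1
  obtain ⟨hk2, hk2m, hk2c⟩ := kap_facts hc0 hm2
  have hmc1 := mc_ge hc0 hcs hy hlo1
  have hmc2 := mc_ge hc0 hcs hy hlo2
  have hey := Real.exp_pos y
  have h8 : 8 * Real.exp y ≤ X := by
    refine le_trans ?_ hX1.le
    have b1 : Real.exp y ≤ Real.exp ((4 * s + 1) * y) := by
      apply Real.exp_le_exp.2; nlinarith
    have b2 : (1 : ℝ) ≤ (D : ℝ) ^ 2 := one_le_pow₀ hD'
    calc 8 * Real.exp y ≤ 768 * 1 * Real.exp y := by linarith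
      _ ≤ 768 * (D : ℝ) ^ 2 * Real.exp ((4 * s + 1) * y) := by gcongr
  have hcross := cross_zero he hX0 (by positivity) hey.le hk1.le hk2.le hvl hvc hwl hwc
    (small_num hk1.le hk2.le (hk1m.trans hhi1) (hk2m.trans hhi2) hX1)
  obtain ⟨hend1, hend2⟩ := H716.end_dot (hRp i1) (hRp i2) hcop12 hvM hwM hcross hv0 hw0
  have hnv := nm_small he hX0 (by positivity) hey.le hk1.le hvl hvc h8
  have hnw := nm_small he hX0 (by positivity) hey.le hk2.le hwl hwc h8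
  have hfin : ((∏ j, M (i1, j) : ℕ) : ℝ) * ((∏ j, M (i2, j) : ℕ) : ℝ) ≤ 2401 * (D : ℝ) ^ 2 *
      (((∏ j, M (i1, j) : ℕ) : ℝ) ^ (1 - c3) * ((∏ j, M (i2, j) : ℕ) : ℝ) ^ (1 - c3)) := by
    have a1 : ((∏ j, M (i1, j) : ℕ) : ℝ) * ((∏ j, M (i2, j) : ℕ) : ℝ) ≤
        |((v.1 * w.1 + v.2 * w.2 : ℤ) : ℝ)| := by exact_mod_cast hend1
    refine a1.trans ?_
    refine abs_le_of_sq_le_sq ?_ (by positivity)
    have a2 : (((v.1 * w.1 + v.2 * w.2 : ℤ)) : ℝ) ^ 2 = (nm v : ℝ) * (nm w : ℝ) := by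
      unfold nm
      exact_mod_cast hend2
    rw [a2]
    have a4 : (0 : ℝ) ≤ (nm w : ℝ) := by exact_mod_cast nm_nonneg w
    refine (mul_le_mul hnv hnw a4 (sq_nonneg _)).trans (le_of_eq ?_)
    ring
  have hlast := final_num hk1 hk2 hk1c hk2c hmc1 hmc2 hfin
  linarith

end Vale.Agent.P015.H606
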